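import Vale.Agent.P322.Trace

/-! The Hellinger type inequality for odd Boolean functions. -/

namespace Vale.Agent.P322

open Finset Matrix Real

variable {ι : Type*} [Fintype ι] [DecidableEq ι]

/-- Product kernel. -/
def ker (a b : ℝ) (x y : ι → Bool) : ℝ := ∏ i, if x i = y i then a else b

/-- Walsh character. -/
def chi (S : Finset ι) (x : ι → Bool) : ℝ := ∏ i, if i ∈ S then (if x i then -1 else 1) else 1

/-- Antipode. -/
def neg (x : ι → Bool) : ι → Bool := fun i => !x i

lemma sum_prod (g : ι → Bool → ℝ) : ∑ x : ι → Bool, ∏ i, g i (x i) = ∏ i, (g i true + g i false) := by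
  rw [← Fintype.piFinset_univ, ← Finset.prod_univ_sum]
  simp

omit [Fintype ι] [DecidableEq ι] in
lemma neg_neg' (x : ι → Bool) : neg (neg x) = x := by funext i; simp [neg]

/-- The antipode as an equivalence. -/
def negE : (ι → Bool) ≃ (ι → Bool) := ⟨neg, neg, neg_neg', neg_neg'⟩

lemma chi_neg (S : Finset ι) (x : ι → Bool) : chi S (neg x) = (-1) ^ S.card * chi S x := by
  have : ((-1 : ℝ)) ^ S.card = ∏ i, if i ∈ S then (-1 : ℝ) else 1 := by
    rw [Finset.prod_ite_mem, Finset.univ_inter, Finset.prod_const]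
  rw [this, chi, chi, ← Finset.prod_mul_distrib]
  refine Finset.prod_congr rfl fun i _ => ?_
  by_cases h : i ∈ S <;> cases hx : x i <;> simp [neg, h, hx]

lemma chi_orth (S T : Finset ι) :
    ∑ x, chi S x * chi T x = if S = T then (2 : ℝ) ^ Fintype.card ι else 0 := by
  simp only [chi, ← Finset.prod_mul_distrib]
  rw [sum_prod fun i b => (if i ∈ S then (if b then (-1 : ℝ) else 1) else 1) *
    (if i ∈ T then (if b then (-1 : ℝ) else 1) else 1)]
  by_cases h : S = T
  · rw [if_pos h]
    subst h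
    rw [← Finset.card_univ, ← Finset.prod_const]
    refine Finset.prod_congr rfl fun i _ => ?_
    by_cases h : i ∈ S <;> simp [h] <;> norm_num
  · rw [if_neg h]
    obtain ⟨i, hi⟩ : ∃ i, ¬ (i ∈ S ↔ i ∈ T) := by
      by_contra hh
      push Not at hh
      exact h (Finset.ext hh)
    refine Finset.prod_eq_zero (mem_univ i) ?_
    by_cases h1 : i ∈ S <;> by_cases h2 : i ∈ T <;> simp_all

lemma ker_chi (a b : ℝ) (S : Finset ι) (y : ι → Bool) :
    ∑ x, ker a b x y * chi S x = (∏ i, if i ∈ S then a - b else a + b) * chi S y := by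
  simp only [ker, chi, ← Finset.prod_mul_distrib]
  rw [sum_prod fun i c => (if c = y i then a else b) *
    (if i ∈ S then (if c then (-1 : ℝ) else 1) else 1)]
  refine Finset.prod_congr rfl fun i _ => ?_
  by_cases h : i ∈ S <;> cases hy : y i <;> simp [h] <;> ring

omit [DecidableEq ι] in
lemma ker_sq (a b : ℝ) (x y : ι → Bool) : ker a b x y ^ 2 = ker (a ^ 2) (b ^ 2) x y := by
  rw [ker, ker, ← Finset.prod_pow]
  exact Finset.prod_congr rfl fun i _ => by split_ifs <;> rfl

lemma ker_sum (a b : ℝ) (y : ι → Bool) : ∑ x, ker a b x y = (a + b) ^ Fintype.card ι := by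
  have := ker_chi a b (∅ : Finset ι) y
  simpa [chi] using this

omit [DecidableEq ι] in
lemma ker_comm (a b : ℝ) (x y : ι → Bool) : ker a b x y = ker a b y x := by
  simp only [ker, eq_comm]

lemma parseval {κ : Type*} [DecidableEq κ] (s : Finset κ) (S : κ → Finset ι)
    (hS : Set.InjOn S s) (γ : κ → ℝ) :
    ∑ x, (∑ j ∈ s, γ j * chi (S j) x) ^ 2 = 2 ^ Fintype.card ι * ∑ j ∈ s, γ j ^ 2 := by
  simp only [sq, Finset.sum_mul_sum]
  rw [Finset.sum_comm, Finset.mul_sum]
  refine Finset.sum_congr rfl fun j hj => ?_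
  rw [Finset.sum_comm, Finset.sum_eq_single j]
  · have := chi_orth (S j) (S j)
    rw [if_pos rfl] at this
    rw [← this, Finset.sum_mul]
    exact Finset.sum_congr rfl fun x _ => by ring
  · intro k hk hkj
    have := chi_orth (S j) (S k)
    rw [if_neg fun h => hkj (hS hj hk h).symm] at this
    calc _ = γ j * γ k * ∑ x, chi (S j) x * chi (S k) x := by
          rw [Finset.mul_sum]; exact Finset.sum_congr rfl fun x _ => by ring
      _ = 0 := by rw [this, mul_zero]
  · intro h; exact absurd hj h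

lemma split_odd (f : (ι → Bool) → Bool) (hf : ∀ x, f (neg x) = !f x) (g : (ι → Bool) → ℝ) :
    ∑ x, g x = ∑ x, (if f x then g x else 0) + ∑ x, (if f x then g (neg x) else 0) := by
  rw [← Equiv.sum_comp negE (fun x => if f x then g (neg x) else 0), ← Finset.sum_add_distrib]
  refine Finset.sum_congr rfl fun x _ => ?_
  simp only [negE, Equiv.coe_fn_mk, hf, neg_neg']
  cases f x <;> simp

lemma gram_form {Ω Y : Type*} [Fintype Ω] [Fintype Y] (w : Y → ℝ) (l : Y → Ω → ℝ) (v : Ω → ℝ) :
    v ⬝ᵥ (Matrix.of fun x x' => ∑ y, w y * (l y x * l y x')) *ᵥ v =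
      ∑ y, w y * (∑ x, l y x * v x) ^ 2 := by
  simp only [dotProduct, mulVec, Matrix.of_apply, sq, Finset.mul_sum, Finset.sum_mul]
  rw [Finset.sum_comm]
  conv_rhs => rw [Finset.sum_comm]
  refine Finset.sum_congr rfl fun x _ => ?_
  rw [Finset.sum_comm]
  refine Finset.sum_congr rfl fun x' _ => Finset.sum_congr rfl fun y _ => by ring

lemma gram_psd {Ω Y : Type*} [Fintype Ω] [Fintype Y] (w : Y → ℝ) (hw : ∀ y, 0 ≤ w y)
    (l : Y → Ω → ℝ) : (Matrix.of fun x x' => ∑ y, w y * (l y x * l y x')).PosSemidef := by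
  refine Matrix.PosSemidef.of_dotProduct_mulVec_nonneg ?_ fun v => ?_
  · ext x x'
    simp [mul_comm]
  · rw [star_trivial, gram_form]
    exact Finset.sum_nonneg fun y _ => mul_nonneg (hw y) (sq_nonneg _)

end Vale.Agent.P322
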