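import Mathlib

/-! Definitions for the Courtade-Kumar problem. Signs are coded by Booleans. -/

namespace Vale.Agent.P322

/-- Binary entropy in bits. -/
noncomputable def h2 (p : ℝ) : ℝ := -p * Real.logb 2 p - (1 - p) * Real.logb 2 (1 - p)

/-- `P(f X = b, Y = y)` for `X` uniform and `Y` the output of `n` independent binary symmetric
channels with crossover probability `ε`. -/
noncomputable def joint {n : ℕ} (f : (Fin n → Bool) → Bool) (ε : ℝ) (b : Bool)
    (y : Fin n → Bool) : ℝ :=
  ∑ x : Fin n → Bool, if f x = b then (1 / 2 ^ n) * ∏ i, (if x i = y i then 1 - ε else ε) else 0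

/-- Mutual information in bits of a joint probability mass function. -/
noncomputable def mutInfo {α β : Type} [Fintype α] [Fintype β] (p : α → β → ℝ) : ℝ :=
  ∑ a, ∑ b, p a b * Real.logb 2 (p a b / ((∑ b', p a b') * ∑ a', p a' b))

end Vale.Agent.P322
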