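import Mathlib

/-! Tangent line inequality for the binary entropy as a function of `2 √(q (1 - q))`. -/

namespace Vale.Agent.P322

open Real Set

lemma sinh_sign {u0 : ℝ} (h0 : 0 ≤ u0) : ∃ l : ℝ, 0 ≤ l ∧
    (∀ u, 0 ≤ u → u ≤ u0 → l * sinh u ≤ u) ∧ (∀ u, u0 ≤ u → u ≤ l * sinh u) := by
  rcases h0.eq_or_lt with rfl | hp
  · refine ⟨1, zero_le_one, fun u h1 h2 => ?_, fun u h => ?_⟩
    · rw [le_antisymm h2 h1]; simp
    · rw [one_mul]; exact self_le_sinh_iff.2 h
  have hs : 0 < sinh u0 := sinh_pos_iff.2 hp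
  have cv : ConvexOn ℝ (Ici 0) sinh := by
    refine MonotoneOn.convexOn_of_deriv (convex_Ici 0) continuous_sinh.continuousOn
      differentiable_sinh.differentiableOn ?_
    rw [Real.deriv_sinh]
    exact cosh_strictMonoOn.monotoneOn.mono interior_subset
  have key : ∀ a b : ℝ, 0 ≤ a → a ≤ b → 0 < b → b * sinh a ≤ a * sinh b := by
    intro a b ha hab hb
    have := cv.2 (mem_Ici.2 le_rfl) (mem_Ici.2 hb.le)
      (sub_nonneg.2 (div_le_one_of_le₀ hab hb.le)) (show 0 ≤ a / b by positivity) (by ring)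
    simp only [smul_eq_mul, mul_zero, zero_add, sinh_zero, div_mul_cancel₀ a hb.ne'] at this
    calc b * sinh a ≤ b * (a / b * sinh b) := by gcongr
      _ = a * sinh b := by field_simp
  refine ⟨u0 / sinh u0, by positivity, fun u h1 h2 => ?_, fun u h => ?_⟩
  · rw [div_mul_eq_mul_div, div_le_iff₀ hs]; exact key u u0 h1 h2 hp
  · rw [div_mul_eq_mul_div, le_div_iff₀ hs]; exact key u0 u hp.le h (hp.trans_le h)

/-- The function to be minimised. -/
noncomputable def Phi (l u : ℝ) : ℝ := log (2 * cosh u) - u * (sinh u / cosh u) - l * (cosh u)⁻¹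

lemma Phi_deriv (l u : ℝ) : HasDerivAt (Phi l) ((l * sinh u - u) / cosh u ^ 2) u := by
  have hc := (cosh_pos u).ne'
  have h1 := ((hasDerivAt_cosh u).const_mul 2).log (by positivity)
  have h2 := (hasDerivAt_id u).mul ((hasDerivAt_sinh u).div (hasDerivAt_cosh u) hc)
  have h3 := ((hasDerivAt_cosh u).inv hc).const_mul l
  refine ((h1.sub h2).sub h3).congr_deriv ?_
  have := cosh_sq u
  simp only [id, Pi.div_apply]
  field_simp
  rw [this]; ring

lemma Phi_abs (l u : ℝ) : Phi l |u| = Phi l u := by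
  rcases abs_choice u with h | h <;> rw [h]
  simp [Phi, neg_div]

lemma Phi_min {u0 : ℝ} (h0 : 0 ≤ u0) : ∃ l : ℝ, 0 ≤ l ∧ ∀ u, Phi l u0 ≤ Phi l u := by
  obtain ⟨l, hl, h1, h2⟩ := sinh_sign h0
  refine ⟨l, hl, fun u => ?_⟩
  rw [← Phi_abs l u]
  have ha := abs_nonneg u
  generalize |u| = w at ha
  have df : Differentiable ℝ (Phi l) := fun x => (Phi_deriv l x).differentiableAt
  rcases le_total w u0 with h | h
  · have : AntitoneOn (Phi l) (Icc 0 u0) := by
      refine antitoneOn_of_deriv_nonpos (convex_Icc _ _) df.continuous.continuousOn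
        df.differentiableOn fun x hx => ?_
      have hx := interior_subset hx
      rw [(Phi_deriv l x).deriv]
      exact div_nonpos_of_nonpos_of_nonneg (sub_nonpos.2 (h1 x hx.1 hx.2)) (by positivity)
    exact this ⟨ha, h⟩ ⟨h0, le_rfl⟩ h
  · have : MonotoneOn (Phi l) (Ici u0) := by
      refine monotoneOn_of_deriv_nonneg (convex_Ici _) df.continuous.continuousOn
        df.differentiableOn fun x hx => ?_
      have hx := interior_subset hx
      rw [(Phi_deriv l x).deriv]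
      exact div_nonneg (sub_nonneg.2 (h2 x hx)) (by positivity)
    exact this (mem_Ici.2 le_rfl) h h

lemma Phi_eq (l : ℝ) {q : ℝ} (h0 : 0 < q) (h1 : q < 1) :
    Phi l (log (√(1 - q) / √q)) =
      -q * log q - (1 - q) * log (1 - q) - l * (2 * (√q * √(1 - q))) := by
  have h1' : 0 < 1 - q := by linarith
  have a0 : 0 < √q := sqrt_pos.2 h0
  have b0 : 0 < √(1 - q) := sqrt_pos.2 h1'
  have a2 : √q ^ 2 = q := sq_sqrt h0.le
  have b2 : √(1 - q) ^ 2 = 1 - q := sq_sqrt h1'.le
  have la : log q = 2 * log √q := by rw [log_sqrt h0.le]; ring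
  have lb : log (1 - q) = 2 * log √(1 - q) := by rw [log_sqrt h1'.le]; ring
  rw [la, lb]
  set a := √q
  set b := √(1 - q)
  have hab : a ^ 2 + b ^ 2 = 1 := by linarith
  have hc : cosh (log (b / a)) = (2 * (a * b))⁻¹ := by
    rw [cosh_log (by positivity)]
    field_simp
    linarith
  have hs : sinh (log (b / a)) = (b ^ 2 - a ^ 2) * (2 * (a * b))⁻¹ := by
    rw [sinh_log (by positivity)]
    field_simp
  rw [Phi, hc, hs, inv_inv, mul_div_assoc, div_self (by positivity), log_div b0.ne' a0.ne']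
  have : (2 : ℝ) * (2 * (a * b))⁻¹ = (a * b)⁻¹ := by field_simp
  rw [this, log_inv, log_mul a0.ne' b0.ne', b2, a2]
  ring

lemma tangent {ε : ℝ} (h0 : 0 < ε) (h1 : ε ≤ 1 / 2) : ∃ l : ℝ, 0 ≤ l ∧ ∀ q : ℝ, 0 < q → q < 1 →
    -ε * log ε - (1 - ε) * log (1 - ε) - l * (2 * (√ε * √(1 - ε))) ≤
      -q * log q - (1 - q) * log (1 - q) - l * (2 * (√q * √(1 - q))) := by
  have hu : 0 ≤ log (√(1 - ε) / √ε) := by
    apply log_nonneg
    rw [one_le_div (sqrt_pos.2 h0)]
    exact sqrt_le_sqrt (by linarith)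
  obtain ⟨l, hl, h⟩ := Phi_min hu
  refine ⟨l, hl, fun q q0 q1 => ?_⟩
  rw [← Phi_eq l h0 (by linarith), ← Phi_eq l q0 q1]
  exact h _

end Vale.Agent.P322
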