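import Vale.Agent.P322.Odd

/-! The inequality for functions that are odd on each subcube of a partition. -/

namespace Vale.Agent.P322

open Finset Real

variable {ι : Type*} [Fintype ι] [DecidableEq ι]

/-- Replace the coordinates in `J`. -/
def glue (J : Finset ι) (z : {i // i ∈ J} → Bool) (x : ι → Bool) : ι → Bool :=
  fun i => if h : i ∈ J then z ⟨i, h⟩ else x i

lemma sum_glue (J : Finset ι) (x0 : ι → Bool) (h : (ι → Bool) → ℝ) :
    ∑ z, h (glue J z x0) = ∑ x, if ∀ i ∉ J, x i = x0 i then h x else 0 := by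
  rw [← Finset.sum_filter]
  refine Finset.sum_nbij' (fun z => glue J z x0) (fun x i => x i) ?_ ?_ ?_ ?_ ?_
  · intro z _
    simp only [Finset.mem_filter, mem_univ, true_and]
    intro i hi; simp [glue, hi]
  · intro x _; exact mem_univ _
  · intro z _; funext i; simp [glue, i.2]
  · intro x hx
    simp only [Finset.mem_filter, mem_univ, true_and] at hx
    funext i
    by_cases hi : i ∈ J
    · simp [glue, hi]
    · simp [glue, hi, hx i hi]
  · intro z _; rfl

lemma card_agree (J : Finset ι) (x0 : ι → Bool) :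
    ∑ x : ι → Bool, (if ∀ i ∉ J, x i = x0 i then (1 : ℝ) else 0) = 2 ^ J.card := by
  rw [← sum_glue J x0 fun _ => 1]
  simp

lemma avg_glue (J : (ι → Bool) → Finset ι)
    (h1 : ∀ x x', (∀ i ∉ J x, x' i = x i) → J x' = J x) (h : (ι → Bool) → ℝ) :
    ∑ x, h x = ∑ x0, ((2 : ℝ) ^ (J x0).card)⁻¹ * ∑ z, h (glue (J x0) z x0) := by
  simp only [sum_glue, Finset.mul_sum]
  rw [Finset.sum_comm]
  refine Finset.sum_congr rfl fun x _ => ?_
  have : ∀ x0, (((2 : ℝ) ^ (J x0).card)⁻¹ * if ∀ i ∉ J x0, x i = x0 i then h x else 0) =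
      ((2 : ℝ) ^ (J x).card)⁻¹ * h x * if ∀ i ∉ J x, x0 i = x i then 1 else 0 := by
    intro x0
    by_cases hc : ∀ i ∉ J x0, x i = x0 i
    · have e := h1 x0 x hc
      rw [if_pos hc, if_pos (by rw [e]; exact fun i hi => (hc i hi).symm), e, mul_one]
    · rw [if_neg hc, if_neg, mul_zero, mul_zero]
      intro hc'
      have e := h1 x x0 hc'
      exact hc (by rw [e]; exact fun i hi => (hc' i hi).symm)
  simp only [this]
  rw [← Finset.mul_sum, card_agree]
  field_simp

lemma ker_glue (a b : ℝ) (J : Finset ι) (z w : {i // i ∈ J} → Bool) (x y : ι → Bool) :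
    ker a b (glue J z x) (glue J w y) =
      ker a b z w * ∏ i, if i ∈ J then 1 else if y i = x i then a else b := by
  have e : ker a b z w = ∏ i, if h : i ∈ J then (if z ⟨i, h⟩ = w ⟨i, h⟩ then a else b) else 1 := by
    rw [ker, Finset.prod_dite]
    simp only [Finset.prod_const_one, mul_one]
    refine Finset.prod_equiv (Equiv.subtypeEquivRight (by simp)) (by simp) (by simp)
  rw [e, ker, ← Finset.prod_mul_distrib]
  refine Finset.prod_congr rfl fun i _ => ?_
  by_cases hi : i ∈ J <;> simp [glue, hi, eq_comm]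

theorem sub_ineq (f : (ι → Bool) → Bool) (J : (ι → Bool) → Finset ι)
    (h1 : ∀ x x', (∀ i ∉ J x, x' i = x i) → J x' = J x)
    (h2 : ∀ x, f (fun i => if i ∈ J x then !x i else x i) = !f x) {a b : ℝ}
    (ha : 0 ≤ a) (hb : 0 ≤ b) (hab : a ^ 2 + b ^ 2 = 1)
    (t : (ι → Bool) → ℝ) (ht : ∀ y, 0 < t y) :
    2 * (a * b) * 2 ^ Fintype.card ι ≤
      ∑ y, (t y * ∑ x, (if f x then ker (a ^ 2) (b ^ 2) x y else 0) +
        (t y)⁻¹ * ∑ x, (if f x then 0 else ker (a ^ 2) (b ^ 2) x y)) := by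
  have form : ∀ {κ : Type _} [Fintype κ] [DecidableEq κ] (f : (κ → Bool) → Bool)
      (t : (κ → Bool) → ℝ),
      ∑ y, (t y * ∑ x, (if f x then ker (a ^ 2) (b ^ 2) x y else 0) +
        (t y)⁻¹ * ∑ x, (if f x then 0 else ker (a ^ 2) (b ^ 2) x y)) =
      ∑ x, ∑ y, (if f x then t y else (t y)⁻¹) * ker (a ^ 2) (b ^ 2) x y := by
    intro κ _ _ f t
    rw [Finset.sum_comm]
    refine Finset.sum_congr rfl fun y _ => ?_
    rw [Finset.mul_sum, Finset.mul_sum, ← Finset.sum_add_distrib]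
    exact Finset.sum_congr rfl fun x _ => by cases f x <;> simp
  rw [form, avg_glue J h1]
  have : 2 * (a * b) * 2 ^ Fintype.card ι = ∑ _x : ι → Bool, 2 * (a * b) := by
    simp [mul_comm]
  rw [this]
  refine Finset.sum_le_sum fun x0 _ => ?_
  set J0 := J x0 with hJ0
  obtain ⟨i0, hi0⟩ : J0.Nonempty := by
    rw [Finset.nonempty_iff_ne_empty]
    intro e
    have := h2 x0
    rw [← hJ0, e] at this
    simp at this
  have odd : ∀ z, f (glue J0 (neg z) x0) = !f (glue J0 z x0) := by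
    intro z
    have e : J (glue J0 z x0) = J0 := h1 x0 _ fun i hi => by simp [glue, hJ0, hi]
    rw [← h2, e]
    congr 1
    funext i
    by_cases hi : i ∈ J0 <;> simp [glue, neg, hi]
  set c : (ι → Bool) → ℝ := fun y => ∏ i, if i ∈ J0 then 1 else if y i = x0 i then a ^ 2 else b ^ 2
    with hc
  have c0 : ∀ y, 0 ≤ c y := fun y => Finset.prod_nonneg fun i _ => by split_ifs <;> positivity
  have c1 : ∑ y, c y = 2 ^ J0.card := by
    rw [hc, sum_prod fun i d => if i ∈ J0 then 1 else if d = x0 i then a ^ 2 else b ^ 2]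
    have : (2 : ℝ) ^ J0.card = ∏ i, if i ∈ J0 then (2 : ℝ) else 1 := by
      rw [Finset.prod_ite_mem, Finset.univ_inter, Finset.prod_const]
    rw [this]
    refine Finset.prod_congr rfl fun i _ => ?_
    by_cases hi : i ∈ J0 <;> cases x0 i <;> simp [hi] <;> linarith
  rw [Finset.sum_comm, avg_glue (fun _ => J0) (fun _ _ _ => rfl)]
  have key : ∀ y0, c y0 * (2 * (a * b) * 2 ^ J0.card) ≤ ∑ w, ∑ z,
      (if f (glue J0 z x0) then t (glue J0 w y0) else (t (glue J0 w y0))⁻¹) *
        ker (a ^ 2) (b ^ 2) (glue J0 z x0) (glue J0 w y0) := by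
    intro y0
    have := odd_ineq (ι := {i // i ∈ J0}) ⟨i0, hi0⟩ (fun z => f (glue J0 z x0)) odd ha hb hab
      (fun w => t (glue J0 w y0)) fun w => ht _
    rw [form, Fintype.card_coe, Finset.sum_comm] at this
    refine (mul_le_mul_of_nonneg_left this (c0 y0)).trans (le_of_eq ?_)
    simp only [Finset.mul_sum, ker_glue]
    exact Finset.sum_congr rfl fun _ _ => Finset.sum_congr rfl fun _ _ => by rw [hc]; ring
  rw [← Finset.mul_sum]
  have k2 := Finset.sum_le_sum fun y0 (_ : y0 ∈ univ) => key y0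
  rw [← Finset.sum_mul, c1] at k2
  have p : (0 : ℝ) < 2 ^ J0.card := by positivity
  calc 2 * (a * b) = (2 ^ J0.card)⁻¹ * ((2 ^ J0.card)⁻¹ *
        (2 ^ J0.card * (2 * (a * b) * 2 ^ J0.card))) := by field_simp
    _ ≤ _ := by gcongr

end Vale.Agent.P322
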