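import Vale.Agent.P322.Defs
import Vale.Agent.P322.Sub
import Vale.Agent.P322.Ent

/-! Assembly. -/

namespace Vale.Agent.P322

open Finset Real

lemma term_eq {c q : ℝ} (hc : 0 < c) :
    c * q * log (c * q / (1 / 2 * c)) = c * (q * log 2 + q * log q) := by
  by_cases hq : q = 0
  · simp [hq]
  · have : c * q / (1 / 2 * c) = 2 * q := by field_simp
    rw [this, log_mul two_ne_zero hq]; ring

theorem main {n : ℕ} (f : (Fin n → Bool) → Bool) (J : (Fin n → Bool) → Finset (Fin n))
    (h1 : ∀ x x', (∀ i ∉ J x, x' i = x i) → J x' = J x)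
    (h2' : ∀ x, f (fun i => if i ∈ J x then !x i else x i) = !f x) {ε : ℝ} (h0 : 0 ≤ ε)
    (hε : ε ≤ 1 / 2) : mutInfo (joint f ε) ≤ 1 - h2 ε := by
  set c : ℝ := 1 / 2 ^ n with hc
  have c0 : 0 < c := by positivity
  have cN : ∑ _y : Fin n → Bool, c = 1 := by simp [hc]
  set q : (Fin n → Bool) → ℝ := fun y => ∑ x, if f x then ker (1 - ε) ε x y else 0 with hq
  set q' : (Fin n → Bool) → ℝ := fun y => ∑ x, if f x then 0 else ker (1 - ε) ε x y with hq'
  have k0 : ∀ x y : Fin n → Bool, 0 ≤ ker (1 - ε) ε x y := fun x y =>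
    Finset.prod_nonneg fun i _ => by split_ifs <;> linarith
  have k1 : ∀ y : Fin n → Bool, ∑ x, ker (1 - ε) ε x y = 1 := fun y => by rw [ker_sum]; simp
  have qq : ∀ y, q' y = 1 - q y := by
    intro y
    rw [← k1 y, hq, hq', ← Finset.sum_sub_distrib]
    exact Finset.sum_congr rfl fun x _ => by cases f x <;> simp
  have j1 : ∀ y, joint f ε true y = c * q y := by
    intro y
    rw [joint, hq, Finset.mul_sum]
    exact Finset.sum_congr rfl fun x _ => by cases f x <;> simp [ker, hc]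
  have j2 : ∀ y, joint f ε false y = c * (1 - q y) := by
    intro y
    rw [← qq, joint, hq', Finset.mul_sum]
    exact Finset.sum_congr rfl fun x _ => by cases f x <;> simp [ker, hc]
  let σ : (Fin n → Bool) → Fin n → Bool := fun x i => if i ∈ J x then !x i else x i
  have σσ : ∀ x, σ (σ x) = x := by
    intro x
    have e : J (σ x) = J x := h1 x _ fun i hi => by simp [σ, hi]
    funext i
    by_cases hi : i ∈ J x <;> simp [σ, e, hi]
  have bal : ∑ y, c * q y = 1 / 2 := by
    have e1 : ∑ y, q y = ∑ x, if f x then (1 : ℝ) else 0 := by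
      rw [hq, Finset.sum_comm]
      refine Finset.sum_congr rfl fun x _ => ?_
      cases f x
      · simp
      · simp only [if_true, ker_comm _ _ x, k1]
    have e2 : (∑ x, if f x then (1 : ℝ) else 0) = ∑ x, (1 - if f x then (1 : ℝ) else 0) := by
      rw [← Equiv.sum_comp (⟨σ, σ, σσ, σσ⟩ : (Fin n → Bool) ≃ (Fin n → Bool))]
      refine Finset.sum_congr rfl fun x _ => ?_
      have : f (σ x) = !f x := h2' x
      simp only [Equiv.coe_fn_mk, this]
      cases f x <;> simp
    rw [Finset.sum_sub_distrib] at e2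
    have e3 : c * ∑ _y : Fin n → Bool, (1 : ℝ) = 1 := by rw [Finset.mul_sum]; simpa using cN
    rw [← Finset.mul_sum, e1]
    have e4 : (∑ x, if f x then (1 : ℝ) else 0) = (∑ _y : Fin n → Bool, (1 : ℝ)) / 2 := by linarith
    rw [e4, ← mul_div_assoc, e3]
  have bal' : ∑ y, c * (1 - q y) = 1 / 2 := by
    simp only [mul_sub, mul_one]
    rw [Finset.sum_sub_distrib, cN, bal]; norm_num
  have l2 : 0 < log 2 := log_pos one_lt_two
  set H : (Fin n → Bool) → ℝ := fun y => -q y * log (q y) - (1 - q y) * log (1 - q y) with hH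
  have I : mutInfo (joint f ε) = 1 - (∑ y, c * H y) / log 2 := by
    have m : ∀ y, c * q y + c * (1 - q y) = c := fun y => by ring
    simp only [mutInfo, Fintype.sum_bool, j1, j2, bal, bal', m, Real.logb, ← mul_div_assoc,
      term_eq c0]
    rw [← Finset.sum_div, ← Finset.sum_div, ← add_div, ← Finset.sum_add_distrib, eq_sub_iff_add_eq,
      ← add_div, ← Finset.sum_add_distrib, div_eq_one_iff_eq l2.ne']
    have : log 2 = ∑ _y : Fin n → Bool, c * log 2 := by rw [← Finset.sum_mul, cN, one_mul]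
    refine Eq.trans ?_ this.symm
    exact Finset.sum_congr rfl fun y _ => by rw [hH]; ring
  have hh : h2 ε = (-ε * log ε - (1 - ε) * log (1 - ε)) / log 2 := by
    simp only [h2, Real.logb]; ring
  rw [I, hh]
  refine sub_le_sub_left (div_le_div_of_nonneg_right ?_ l2.le) 1
  have q0 : ∀ y, 0 ≤ q y := fun y => Finset.sum_nonneg fun x _ => by
    split_ifs; exacts [k0 x y, le_rfl]
  have q1 : ∀ y, 0 ≤ 1 - q y := fun y => by
    rw [← qq]
    exact Finset.sum_nonneg fun x _ => by split_ifs; exacts [le_rfl, k0 x y]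
  rcases h0.eq_or_lt with rfl | hp
  · simp only [neg_zero, zero_mul, sub_zero, log_one, mul_zero]
    refine Finset.sum_nonneg fun y _ => mul_nonneg c0.le ?_
    have a1 := mul_log_nonpos (q0 y) (by linarith [q1 y])
    have a2 := mul_log_nonpos (q1 y) (by linarith [q0 y])
    simp only [hH]; linarith
  have k2 : ∀ x y : Fin n → Bool, 0 < ker (1 - ε) ε x y := fun x y =>
    Finset.prod_pos fun i _ => by split_ifs <;> linarith
  obtain ⟨x1, hx1, hx2⟩ : ∃ x, f x = true ∧ f (σ x) = false := by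
    cases hx : f fun _ => true
    · exact ⟨σ fun _ => true, by rw [h2', hx]; rfl, by rw [σσ, hx]⟩
    · exact ⟨_, hx, by rw [h2', hx]; rfl⟩
  have q2 : ∀ y, 0 < q y := fun y => Finset.sum_pos' (fun x _ => by
    split_ifs; exacts [k0 x y, le_rfl]) ⟨x1, mem_univ _, by simpa [hx1] using k2 x1 y⟩
  have q3 : ∀ y, 0 < 1 - q y := fun y => by
    rw [← qq]
    exact Finset.sum_pos' (fun x _ => by split_ifs; exacts [le_rfl, k0 x y])
      ⟨σ x1, mem_univ _, by simpa [hx2] using k2 (σ x1) y⟩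
  obtain ⟨l, hl, tg⟩ := tangent hp hε
  have e1 : √(1 - ε) ^ 2 = 1 - ε := sq_sqrt (by linarith)
  have e2 : √ε ^ 2 = ε := sq_sqrt hp.le
  have key := sub_ineq f J h1 h2' (sqrt_nonneg (1 - ε)) (sqrt_nonneg ε) (by rw [e1, e2]; ring)
    (fun y => √(1 - q y) / √(q y)) fun y => div_pos (sqrt_pos.2 (q3 y)) (sqrt_pos.2 (q2 y))
  rw [e1, e2, Fintype.card_fin] at key
  have e3 : ∀ y, √(1 - q y) / √(q y) * q y + (√(1 - q y) / √(q y))⁻¹ * q' y =
      2 * (√(q y) * √(1 - q y)) := by
    intro y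
    have a0 := sqrt_pos.2 (q2 y)
    have b0 := sqrt_pos.2 (q3 y)
    have a2 := sq_sqrt (q0 y)
    have b2 := sq_sqrt (q1 y)
    rw [qq]
    generalize √(q y) = a at *
    generalize √(1 - q y) = b at *
    rw [← b2, ← a2]
    field_simp
    ring
  have key2 : 2 * (√ε * √(1 - ε)) ≤ ∑ y, c * (2 * (√(q y) * √(1 - q y))) := by
    rw [← Finset.mul_sum, ← Finset.sum_congr rfl fun y _ => e3 y]
    refine le_trans (le_of_eq ?_) (mul_le_mul_of_nonneg_left key c0.le)
    rw [hc]; field_simp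
  have s1 := Finset.sum_le_sum fun y (_ : y ∈ univ) =>
    mul_le_mul_of_nonneg_left (tg (q y) (q2 y) (by linarith [q3 y])) c0.le
  rw [← Finset.sum_mul, cN, one_mul] at s1
  have s2 : ∑ y, c * (-q y * log (q y) - (1 - q y) * log (1 - q y) -
      l * (2 * (√(q y) * √(1 - q y)))) =
      ∑ y, c * H y - l * ∑ y, c * (2 * (√(q y) * √(1 - q y))) := by
    rw [Finset.mul_sum, ← Finset.sum_sub_distrib]
    exact Finset.sum_congr rfl fun y _ => by rw [hH]; ring
  rw [s2] at s1
  nlinarith [mul_le_mul_of_nonneg_left key2 hl]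

end Vale.Agent.P322
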