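import Vale.Agent.P322.Core

/-! The main inequality for odd functions. -/

namespace Vale.Agent.P322

open Finset Matrix Real

variable {ι : Type*} [Fintype ι] [DecidableEq ι]

/-- Parity adjusted set. -/
def adj (i0 : ι) (k : ℕ) (T : Finset ι) : Finset ι :=
  if T.card % 2 = k % 2 then T else insert i0 T

omit [Fintype ι] in
lemma adj_card {i0 : ι} {k : ℕ} {T : Finset ι} (h : i0 ∉ T) (hk : T.card ≤ k) :
    (adj i0 k T).card ≤ k ∧ (adj i0 k T).card % 2 = k % 2 := by
  unfold adj
  split_ifs with h1
  · exact ⟨hk, h1⟩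
  · rw [Finset.card_insert_of_notMem h]; omega

omit [Fintype ι] in
lemma adj_erase {i0 : ι} {k : ℕ} {T : Finset ι} (h : i0 ∉ T) : (adj i0 k T).erase i0 = T := by
  unfold adj
  split_ifs with h1
  · exact Finset.erase_eq_of_notMem h
  · exact Finset.erase_insert h

lemma form_bound (f : (ι → Bool) → Bool) (hf : ∀ x, f (neg x) = !f x) {a b : ℝ}
    (t : (ι → Bool) → ℝ) (ht : ∀ y, 0 < t y) (u : (ι → Bool) → ℝ) {η : ℝ} (hη : η ^ 2 = 1)
    (hu : ∀ x, u (neg x) = η * u x) :
    ∑ y, (∑ x, ker a b x y * u x) ^ 2 ≤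
      ∑ y, (1 + t y) * (∑ x, (if f x then ker a b x y else 0) * (if f x then u x else 0)) ^ 2 +
      ∑ y, (1 + (t y)⁻¹) *
        (∑ x, (if f x then ker a b (neg x) y else 0) * (if f x then u x else 0)) ^ 2 := by
  rw [← Finset.sum_add_distrib]
  refine Finset.sum_le_sum fun y _ => ?_
  set L := ∑ x, (if f x then ker a b x y else 0) * (if f x then u x else 0) with hL
  set M := ∑ x, (if f x then ker a b (neg x) y else 0) * (if f x then u x else 0) with hM
  have e : ∑ x, ker a b x y * u x = L + η * M := by
    rw [split_odd f hf, hL, hM, Finset.mul_sum]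
    congr 1
    · exact Finset.sum_congr rfl fun x _ => by cases f x <;> simp
    · refine Finset.sum_congr rfl fun x _ => ?_
      rw [hu]
      cases f x
      · simp
      · simp; ring
  rw [e]
  have h := ht y
  have k : 0 ≤ (t y * L - η * M) ^ 2 / t y := by positivity
  have k2 : (t y * L - η * M) ^ 2 / t y = t y * L ^ 2 - 2 * η * L * M + η ^ 2 * M ^ 2 * (t y)⁻¹ := by
    field_simp; ring
  rw [k2, hη] at k
  have : (L + η * M) ^ 2 = L ^ 2 + 2 * η * L * M + η ^ 2 * M ^ 2 := by ring
  rw [this, hη]
  nlinarith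

theorem odd_ineq (i0 : ι) (f : (ι → Bool) → Bool) (hf : ∀ x, f (neg x) = !f x) {a b : ℝ}
    (ha : 0 ≤ a) (hb : 0 ≤ b) (hab : a ^ 2 + b ^ 2 = 1)
    (t : (ι → Bool) → ℝ) (ht : ∀ y, 0 < t y) :
    2 * (a * b) * 2 ^ Fintype.card ι ≤
      ∑ y, (t y * ∑ x, (if f x then ker (a ^ 2) (b ^ 2) x y else 0) +
        (t y)⁻¹ * ∑ x, (if f x then 0 else ker (a ^ 2) (b ^ 2) x y)) := by
  set s := 2 * (a * b) with hs
  set n := Fintype.card ι with hn
  have s0 : 0 ≤ s := by positivity
  have s1 : s ≤ 1 := by nlinarith [sq_nonneg (a - b)]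
  set r := (1 - s) / (1 + s) with hr
  have r0 : 0 ≤ r := div_nonneg (by linarith) (by linarith)
  have r1 : r ≤ 1 := div_le_one_of_le₀ (by linarith) (by linarith)
  have hr' : (1 + s) * r = 1 - s := by rw [hr]; field_simp
  let w : (ι → Bool) ⊕ (ι → Bool) → ℝ := Sum.elim (fun y => 1 + t y) (fun y => 1 + (t y)⁻¹)
  let l : (ι → Bool) ⊕ (ι → Bool) → (ι → Bool) → ℝ :=
    Sum.elim (fun y x => if f x then ker a b x y else 0)
      (fun y x => if f x then ker a b (neg x) y else 0)
  have hw : ∀ y, 0 ≤ w y := by
    rintro (y | y) <;> have := ht y <;> simp only [w, Sum.elim_inl, Sum.elim_inr] <;> positivity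
  have key := trace_ge _ (gram_psd w hw l) (univ.erase i0).powerset Finset.card
    (fun k => 2 * (1 + s) ^ n * r ^ k)
    (fun k T x => if f x then chi (adj i0 k T) x else 0) (by
      intro k γ
      set J := (univ.erase i0).powerset.filter (fun T : Finset ι => T.card ≤ k) with hJ
      have hJ' : ∀ T ∈ J, i0 ∉ T ∧ T.card ≤ k := by
        intro T hT
        rw [hJ, Finset.mem_filter, Finset.mem_powerset] at hT
        exact ⟨fun h => by simpa using hT.1 h, hT.2⟩
      have inj : Set.InjOn (adj i0 k) J := fun T hT T' hT' h => by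
        rw [← adj_erase (k := k) (hJ' T hT).1, h, adj_erase (hJ' T' hT').1]
      set u : (ι → Bool) → ℝ := fun x => ∑ T ∈ J, γ T * chi (adj i0 k T) x with hu
      have hv : (∑ T ∈ J, γ T • fun x => if f x then chi (adj i0 k T) x else 0) =
          fun x => if f x then u x else 0 := by
        funext x
        simp only [Finset.sum_apply, Pi.smul_apply, smul_eq_mul, hu]
        cases f x <;> simp
      have hη : ((-1 : ℝ) ^ k) ^ 2 = 1 := by rw [← pow_mul, mul_comm, pow_mul]; simp
      have hun : ∀ x, u (neg x) = (-1) ^ k * u x := by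
        intro x
        simp only [hu, Finset.mul_sum]
        refine Finset.sum_congr rfl fun T hT => ?_
        rw [chi_neg, neg_one_pow_eq_pow_mod_two, (adj_card (hJ' T hT).1 (hJ' T hT).2).2,
          ← neg_one_pow_eq_pow_mod_two]
        ring
      have hvv : 2 * ((fun x => if f x then u x else 0) ⬝ᵥ fun x => if f x then u x else 0) =
          2 ^ n * ∑ T ∈ J, γ T ^ 2 := by
        rw [← parseval J _ inj γ, split_odd f hf fun x => u x ^ 2, two_mul]
        congr 1
        · exact Finset.sum_congr rfl fun x _ => by cases hx : f x <;> simp [sq, hx]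
        · refine Finset.sum_congr rfl fun x _ => ?_
          rw [hun, mul_pow, hη]
          cases hx : f x <;> simp [sq, hx]
      rw [hv]
      constructor
      · intro h0 T hT
        rw [h0] at hvv
        simp only [dotProduct_zero, mul_zero] at hvv
        have h1 : ∑ T ∈ J, γ T ^ 2 = 0 := by
          rcases mul_eq_zero.1 hvv.symm with h | h
          · exact absurd h (by positivity)
          · exact h
        exact pow_eq_zero_iff two_ne_zero |>.1
          ((Finset.sum_eq_zero_iff_of_nonneg fun _ _ => sq_nonneg _).1 h1 T hT)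
      · rw [gram_form, Fintype.sum_sum_type]
        refine le_trans ?_ (form_bound f hf t ht u hη hun)
        have e1 : ∀ y, ∑ x, ker a b x y * u x = ∑ T ∈ J,
            (γ T * ∏ i, if i ∈ adj i0 k T then a - b else a + b) * chi (adj i0 k T) y := by
          intro y
          simp only [hu, Finset.mul_sum]
          rw [Finset.sum_comm]
          refine Finset.sum_congr rfl fun T _ => ?_
          rw [mul_assoc, ← ker_chi, Finset.mul_sum]
          exact Finset.sum_congr rfl fun x _ => by ring
        simp only [e1]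
        rw [parseval J _ inj, mul_comm (2 * (1 + s) ^ n * r ^ k), mul_assoc 2, ← mul_assoc,
          mul_comm _ (2 : ℝ), hvv, mul_assoc, Finset.sum_mul]
        refine mul_le_mul_of_nonneg_left (Finset.sum_le_sum fun T hT => ?_) (by positivity)
        rw [mul_pow]
        refine mul_le_mul_of_nonneg_left ?_ (sq_nonneg _)
        have e2 : (∏ i, if i ∈ adj i0 k T then a - b else a + b) ^ 2 =
            (1 + s) ^ n * r ^ (adj i0 k T).card := by
          have : r ^ (adj i0 k T).card = ∏ i, if i ∈ adj i0 k T then r else 1 := by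
            rw [Finset.prod_ite_mem, Finset.univ_inter, Finset.prod_const]
          rw [this, hn, ← Finset.card_univ, ← Finset.prod_const, ← Finset.prod_mul_distrib,
            ← Finset.prod_pow]
          refine Finset.prod_congr rfl fun i _ => ?_
          split_ifs
          · rw [hr', hs]; linarith
          · rw [hs]; linarith
        rw [e2]
        exact mul_le_mul_of_nonneg_left
          (pow_le_pow_of_le_one r0 r1 (adj_card (hJ' T hT).1 (hJ' T hT).2).1) (by positivity))
  have n1 : n = (univ.erase i0).card + 1 := by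
    rw [Finset.card_erase_add_one (mem_univ _), Finset.card_univ]
  have lhs : ∑ T ∈ (univ.erase i0).powerset, 2 * (1 + s) ^ n * r ^ T.card = (1 + s) * 2 ^ n := by
    have e := Finset.prod_one_add (f := fun _ => r) (univ.erase i0)
    simp only [Finset.prod_const] at e
    rw [← Finset.mul_sum, ← e, n1, pow_succ, pow_succ]
    have h2 : (1 + s) * (1 + r) = 2 := by linarith
    have h3 : (2 : ℝ) ^ (univ.erase i0).card =
        (1 + s) ^ (univ.erase i0).card * (1 + r) ^ (univ.erase i0).card := by rw [← mul_pow, h2]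
    rw [h3]
    ring
  rw [lhs, Matrix.trace] at key
  simp only [Matrix.diag, Matrix.of_apply] at key
  rw [Finset.sum_comm, Fintype.sum_sum_type, ← Finset.sum_add_distrib] at key
  have e : ∀ y, ∑ x, w (Sum.inl y) * (l (Sum.inl y) x * l (Sum.inl y) x) +
      ∑ x, w (Sum.inr y) * (l (Sum.inr y) x * l (Sum.inr y) x) =
      1 + (t y * ∑ x, (if f x then ker (a ^ 2) (b ^ 2) x y else 0) +
        (t y)⁻¹ * ∑ x, (if f x then 0 else ker (a ^ 2) (b ^ 2) x y)) := by
    intro y
    have e1 : ∑ x, l (Sum.inl y) x * l (Sum.inl y) x =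
        ∑ x, (if f x then ker (a ^ 2) (b ^ 2) x y else 0) :=
      Finset.sum_congr rfl fun x _ => by rw [← ker_sq, ← sq]; cases hx : f x <;> simp [l, hx]
    have e2 : ∑ x, l (Sum.inr y) x * l (Sum.inr y) x =
        ∑ x, (if f x then 0 else ker (a ^ 2) (b ^ 2) x y) := by
      rw [← Equiv.sum_comp negE]
      refine Finset.sum_congr rfl fun x _ => ?_
      rw [← ker_sq, ← sq]
      cases hx : f x <;> simp [l, negE, hf, hx, neg_neg']
    have e3 : ∑ x, (if f x then ker (a ^ 2) (b ^ 2) x y else 0) +
        ∑ x, (if f x then 0 else ker (a ^ 2) (b ^ 2) x y) = 1 := by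
      have := ker_sum (a ^ 2) (b ^ 2) y
      rw [hab, one_pow] at this
      rw [← this, ← Finset.sum_add_distrib]
      exact Finset.sum_congr rfl fun x _ => by cases f x <;> simp
    rw [← Finset.mul_sum, ← Finset.mul_sum, e1, e2]
    simp only [w, Sum.elim_inl, Sum.elim_inr]
    linarith
  simp only [e] at key
  rw [Finset.sum_add_distrib, Finset.sum_const, Finset.card_univ, Fintype.card_fun,
    Fintype.card_bool, nsmul_eq_mul, mul_one] at key
  push_cast at key
  linarith

end Vale.Agent.P322
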