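import Mathlib

/-! Trace lower bound from subspaces on which a quadratic form is large. -/

namespace Vale.Agent.P322

open Finset Matrix

lemma spec_form {Ω : Type*} [Fintype Ω] [DecidableEq Ω] (D : Matrix Ω Ω ℝ) (hD : D.PosSemidef) :
    ∃ (c : Ω → ℝ) (U : Matrix Ω Ω ℝ), D.trace = ∑ i, c i ∧ (∀ i, 0 ≤ c i) ∧
      (∀ v : Ω → ℝ, v ⬝ᵥ D *ᵥ v = ∑ i, c i * (U *ᵥ v) i ^ 2) ∧
      (∀ v : Ω → ℝ, v ⬝ᵥ v = ∑ i, (U *ᵥ v) i ^ 2) := by
  have hH := hD.isHermitian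
  set V : Matrix Ω Ω ℝ := (hH.eigenvectorUnitary : Matrix Ω Ω ℝ) with hV
  have hs : D = V * diagonal hH.eigenvalues * Vᵀ := by
    have := hH.spectral_theorem
    simpa [Unitary.conjStarAlgAut_apply, hV, star_eq_conjTranspose] using this
  have hVV : V * Vᵀ = 1 := by
    have := hH.eigenvectorUnitary.2.2
    rwa [star_eq_conjTranspose, conjTranspose_eq_transpose_of_trivial] at this
  refine ⟨hH.eigenvalues, Vᵀ, ?_, hD.eigenvalues_nonneg, ?_, ?_⟩
  · simpa using hH.trace_eq_sum_eigenvalues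
  · intro v
    conv_lhs => rw [hs]
    rw [← mulVec_mulVec, ← mulVec_mulVec, dotProduct_mulVec, ← mulVec_transpose]
    simp only [dotProduct, mulVec_diagonal]
    exact Finset.sum_congr rfl fun i _ => by ring
  · intro v
    have : v ⬝ᵥ v = v ⬝ᵥ (V * Vᵀ) *ᵥ v := by rw [hVV, one_mulVec]
    rw [this, ← mulVec_mulVec, dotProduct_mulVec, ← mulVec_transpose]
    simp only [dotProduct]
    exact Finset.sum_congr rfl fun i _ => by ring

lemma count_ge {Ω κ : Type*} [Fintype Ω] [DecidableEq Ω] [DecidableEq κ]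
    (D U : Matrix Ω Ω ℝ) (c : Ω → ℝ)
    (h1 : ∀ v : Ω → ℝ, v ⬝ᵥ D *ᵥ v = ∑ i, c i * (U *ᵥ v) i ^ 2)
    (h2 : ∀ v : Ω → ℝ, v ⬝ᵥ v = ∑ i, (U *ᵥ v) i ^ 2)
    (s : Finset κ) (φ : κ → Ω → ℝ) (θ : ℝ)
    (h : ∀ γ : κ → ℝ, ((∑ j ∈ s, γ j • φ j) = 0 → ∀ j ∈ s, γ j = 0) ∧
      θ * ((∑ j ∈ s, γ j • φ j) ⬝ᵥ (∑ j ∈ s, γ j • φ j)) ≤
        (∑ j ∈ s, γ j • φ j) ⬝ᵥ D *ᵥ (∑ j ∈ s, γ j • φ j)) :
    s.card ≤ (univ.filter fun i => θ ≤ c i).card := by
  by_contra hlt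
  push Not at hlt
  set r := univ.filter fun i => θ ≤ c i with hr
  let L : (s → ℝ) →ₗ[ℝ] (r → ℝ) :=
    { toFun := fun g i => (U *ᵥ (∑ j : s, g j • φ j)) i
      map_add' := by
        intro a b; funext i
        simp [add_smul, Finset.sum_add_distrib, mulVec_add]
      map_smul' := by
        intro a b; funext i
        simp only [Pi.smul_apply, smul_eq_mul, RingHom.id_apply, mul_smul]
        rw [← Finset.smul_sum, mulVec_smul]; simp }
  have hk : LinearMap.ker L ≠ ⊥ := by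
    apply LinearMap.ker_ne_bot_of_finrank_lt
    simpa using hlt
  obtain ⟨g, hg, hg0⟩ := (Submodule.ne_bot_iff _).1 hk
  let γ : κ → ℝ := fun j => if hj : j ∈ s then g ⟨j, hj⟩ else 0
  have hsum : (∑ j ∈ s, γ j • φ j) = ∑ j : s, g j • φ j := by
    rw [← Finset.sum_coe_sort s]
    exact Finset.sum_congr rfl fun j _ => by simp [γ, j.2]
  obtain ⟨ha, hb⟩ := h γ
  set v := ∑ j ∈ s, γ j • φ j with hv
  have hv0 : v ≠ 0 := by
    intro h0
    apply hg0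
    funext j
    have := ha h0 j j.2
    simpa [γ, j.2] using this
  have hz : ∀ i, θ ≤ c i → (U *ᵥ v) i = 0 := by
    intro i hi
    have := congrFun (LinearMap.mem_ker.1 hg) ⟨i, by simp [hr, hi]⟩
    rw [hsum]; exact this
  have hex : ∃ i, (U *ᵥ v) i ≠ 0 := by
    by_contra hne
    push Not at hne
    have : v ⬝ᵥ v = 0 := by rw [h2]; simp [hne]
    exact hv0 (dotProduct_self_eq_zero.1 this)
  obtain ⟨i0, hi0⟩ := hex
  rw [h1, h2, Finset.mul_sum] at hb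
  refine absurd hb (not_le.2 (Finset.sum_lt_sum ?_ ⟨i0, mem_univ _, ?_⟩))
  · intro i _
    by_cases hi : θ ≤ c i
    · simp [hz i hi]
    · exact mul_le_mul_of_nonneg_right (le_of_lt (not_le.1 hi)) (sq_nonneg _)
  · have : ¬ θ ≤ c i0 := fun hi => hi0 (hz i0 hi)
    exact mul_lt_mul_of_pos_right (not_le.1 this) (by positivity)

lemma trace_ge {Ω κ : Type*} [Fintype Ω] [DecidableEq Ω] [DecidableEq κ]
    (D : Matrix Ω Ω ℝ) (hD : D.PosSemidef) (J : Finset κ) (ρ : κ → ℕ) (θ : ℕ → ℝ)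
    (φ : ℕ → κ → Ω → ℝ)
    (h : ∀ (k : ℕ) (γ : κ → ℝ),
      ((∑ j ∈ J.filter (ρ · ≤ k), γ j • φ k j) = 0 → ∀ j ∈ J.filter (ρ · ≤ k), γ j = 0) ∧
      θ k * ((∑ j ∈ J.filter (ρ · ≤ k), γ j • φ k j) ⬝ᵥ (∑ j ∈ J.filter (ρ · ≤ k), γ j • φ k j)) ≤
        (∑ j ∈ J.filter (ρ · ≤ k), γ j • φ k j) ⬝ᵥ D *ᵥ (∑ j ∈ J.filter (ρ · ≤ k), γ j • φ k j)) :
    ∑ j ∈ J, θ (ρ j) ≤ D.trace := by
  obtain ⟨c, U, htr, hc, h1, h2⟩ := spec_form D hD
  have hcount := fun k => count_ge D U c h1 h2 (J.filter (ρ · ≤ k)) (φ k) (θ k) (h k)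
  let t : J → Finset Ω := fun j => univ.filter fun i => θ (ρ j) ≤ c i
  have hall : ∀ s : Finset J, s.card ≤ (s.biUnion t).card := by
    intro s
    rcases s.eq_empty_or_nonempty with rfl | hs
    · simp
    obtain ⟨j0, hj0, hmax⟩ := s.exists_max_image (fun j => ρ j) hs
    calc s.card = (s.map (Function.Embedding.subtype _)).card := by simp
      _ ≤ (J.filter (ρ · ≤ ρ j0)).card := by
          apply Finset.card_le_card
          intro j hj
          simp only [Finset.mem_map, Function.Embedding.coe_subtype] at hj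
          obtain ⟨a, ha, rfl⟩ := hj
          exact Finset.mem_filter.2 ⟨a.2, hmax a ha⟩
      _ ≤ (t j0).card := hcount _
      _ ≤ (s.biUnion t).card := Finset.card_le_card (Finset.subset_biUnion_of_mem t hj0)
  obtain ⟨g, hg, hgt⟩ := (Finset.all_card_le_biUnion_card_iff_exists_injective t).1 hall
  rw [htr, ← Finset.sum_coe_sort J]
  calc ∑ j : J, θ (ρ j) ≤ ∑ j : J, c (g j) :=
        Finset.sum_le_sum fun j _ => (Finset.mem_filter.1 (hgt j)).2
    _ = ∑ i ∈ univ.image g, c i := by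
        rw [Finset.sum_image fun a _ b _ hab => hg hab]
    _ ≤ ∑ i, c i := Finset.sum_le_sum_of_subset_of_nonneg (Finset.subset_univ _)
        fun i _ _ => hc i

end Vale.Agent.P322
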